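import Mathlib
import Vale.Agent.Lib.P226.Embed

open MeasureTheory ProbabilityTheory Real

namespace Vale.Agent.Results.P226.A_reduction

/-- Finite reduction of the Gaussian propeller conjecture: at most 1200 cells are ever needed,
and one single partition of the space of dimension 1199 dominates all partitions of all
Euclidean spaces as soon as they beat the propeller value. -/
theorem result :
    (∀ (d k : ℕ) (A : Fin k → Set (EuclideanSpace ℝ (Fin d))),
      (∀ i, MeasurableSet (A i)) → Pairwise (Function.onFun Disjoint A) → ⋃ i, A i = Set.univ →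
      9 / (8 * π) < ∑ i, ‖∫ x in A i, x ∂(stdGaussian (EuclideanSpace ℝ (Fin d)))‖ ^ 2 →
      ∃ B : Fin 1200 → Set (EuclideanSpace ℝ (Fin d)),
        (∀ i, MeasurableSet (B i)) ∧ Pairwise (Function.onFun Disjoint B) ∧
        ⋃ i, B i = Set.univ ∧
        ∑ i, ‖∫ x in A i, x ∂(stdGaussian (EuclideanSpace ℝ (Fin d)))‖ ^ 2 ≤
          ∑ i, ‖∫ x in B i, x ∂(stdGaussian (EuclideanSpace ℝ (Fin d)))‖ ^ 2) ∧
    (∃ B : Fin 1200 → Set (EuclideanSpace ℝ (Fin 1199)),
      (∀ i, MeasurableSet (B i)) ∧ Pairwise (Function.onFun Disjoint B) ∧ ⋃ i, B i = Set.univ ∧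
      ∀ (d k : ℕ) (A : Fin k → Set (EuclideanSpace ℝ (Fin d))),
        (∀ i, MeasurableSet (A i)) → Pairwise (Function.onFun Disjoint A) → ⋃ i, A i = Set.univ →
        ∑ i, ‖∫ x in A i, x ∂(stdGaussian (EuclideanSpace ℝ (Fin d)))‖ ^ 2 ≤
          max (9 / (8 * π))
            (∑ i, ‖∫ x in B i, x ∂(stdGaussian (EuclideanSpace ℝ (Fin 1199)))‖ ^ 2)) := by
  constructor
  · intro d k A hm hd hc hF
    obtain ⟨B, hB, hle⟩ := Vale.Agent.Lib.P226.finite_reduction k A ⟨hm, hd, hc⟩ hF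
    exact ⟨B, hB.meas, hB.disj, hB.cover, hle⟩
  · obtain ⟨B, hB, hall⟩ := Vale.Agent.Lib.P226.global_reduction
    refine ⟨B, hB.meas, hB.disj, hB.cover, ?_⟩
    intro d k A hm hd hc
    by_cases hF : 9 / (8 * π) <
        ∑ i, ‖∫ x in A i, x ∂(stdGaussian (EuclideanSpace ℝ (Fin d)))‖ ^ 2
    · exact le_max_of_le_right (hall _ k A ⟨hm, hd, hc⟩ hF)
    · exact le_max_of_le_left (not_lt.mp hF)

end Vale.Agent.Results.P226.A_reduction
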