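import Mathlib
import Vale.Agent.Lib.P226.GFinal

open MeasureTheory ProbabilityTheory Real

namespace Vale.Agent.Results.P226.C_full

/-- The Gaussian propeller conjecture of Khot and Naor. -/
theorem result :
    ∀ (d k : ℕ) (A : Fin k → Set (EuclideanSpace ℝ (Fin d))),
      (∀ i, MeasurableSet (A i)) → Pairwise (Function.onFun Disjoint A) → ⋃ i, A i = Set.univ →
      ∑ i, ‖∫ x in A i, x ∂(stdGaussian (EuclideanSpace ℝ (Fin d)))‖ ^ 2 ≤ 9 / (8 * π) := by
  intro d k A hm hd hc
  exact Vale.Agent.Lib.P226.partition_le_of_PP (Vale.Agent.Lib.P226.PP_all k) A ⟨hm, hd, hc⟩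

end Vale.Agent.Results.P226.C_full
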